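import Vale.Agent.P146.H646.Blk

/-! One more revealed site (P146, block 09-REGK).

`K` is the set of revealed coordinates, `K'` the one with one more site `i0`.
`exch_sq` : a symmetry fixing `K'` exchanges the conditional means.
`regk_test` : tested comparison of the new conditional mean with the old ones.
`sq_norm_sub` : the norm of the vector of conditional means as a test statistic.
`exists_typical` : one step of a window is small for finitely many monotone sequences. -/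

open MeasureTheory

namespace Vale.Agent.P146.H487

set_option linter.unusedSectionVars false

open H646

variable {κ : Type*} [Fintype κ] [DecidableEq κ]
variable {μ : κ → Measure ℝ} [∀ e, IsProbabilityMeasure (μ e)]
variable {w Ψ Φ Q ψ ψ' f g : (κ → ℝ) → ℝ} {K K' : Finset κ}

/-! ### linear algebra of `ex` -/

section ex
variable (hw : Wt μ w)
include hw

theorem ex_one : ex μ w (fun _ => (1 : ℝ)) = 1 := by
  unfold ex
  simp only [mul_one]
  exact div_self hw.tot_pos.ne'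

theorem ex_add (h : BM Ψ) (h' : BM Φ) :
    ex μ w (fun z => Ψ z + Φ z) = ex μ w Ψ + ex μ w Φ := by
  unfold ex
  rw [← add_div, ← integral_add (hw.int_mul h) (hw.int_mul h')]
  congr 1
  refine integral_congr_ae (Filter.Eventually.of_forall fun z => ?_)
  show w z * (Ψ z + Φ z) = w z * Ψ z + w z * Φ z
  ring

omit hw in
theorem ex_const_mul (c : ℝ) : ex μ w (fun z => c * Ψ z) = c * ex μ w Ψ := by
  unfold ex
  rw [← mul_div_assoc, ← integral_const_mul]
  congr 1
  refine integral_congr_ae (Filter.Eventually.of_forall fun z => ?_)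
  show w z * (c * Ψ z) = c * (w z * Ψ z)
  ring

theorem ex_const (c : ℝ) : ex μ w (fun _ => c) = c := by
  have := ex_const_mul (μ := μ) (w := w) (Ψ := fun _ => 1) c
  simpa [ex_one hw] using this

theorem ex_sub (h : BM Ψ) (h' : BM Φ) :
    ex μ w (fun z => Ψ z - Φ z) = ex μ w Ψ - ex μ w Φ := by
  have h1 := ex_add hw h ((BM.const (κ := κ) (-1)).mul h')
  rw [ex_const_mul] at h1
  have h2 : (fun z => Ψ z - Φ z) = fun z => Ψ z + -1 * Φ z := by funext z; ring
  rw [h2, h1]; ring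

theorem ex_sum {ι : Type*} (s : Finset ι) {F : ι → (κ → ℝ) → ℝ} (h : ∀ i ∈ s, BM (F i)) :
    ex μ w (fun z => ∑ i ∈ s, F i z) = ∑ i ∈ s, ex μ w (F i) := by
  classical
  induction s using Finset.induction_on with
  | empty =>
    simp only [Finset.sum_empty]
    exact ex_const hw 0
  | insert a s ha ih =>
    simp only [Finset.sum_insert ha]
    rw [ex_add hw (h a (Finset.mem_insert_self _ _))
      (BM.sum s fun i hi => h i (Finset.mem_insert_of_mem hi)),
      ih fun i hi => h i (Finset.mem_insert_of_mem hi)]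

theorem ex_mono (h : BM Ψ) (h' : BM Φ) (hle : ∀ z, Ψ z ≤ Φ z) : ex μ w Ψ ≤ ex μ w Φ := by
  unfold ex
  refine div_le_div_of_nonneg_right ?_ hw.tot_pos.le
  exact integral_mono (hw.int_mul h) (hw.int_mul h')
    fun z => mul_le_mul_of_nonneg_left (hle _) (hw.pos _).le

theorem ex_nonneg (h : BM Ψ) (h0 : ∀ z, 0 ≤ Ψ z) : 0 ≤ ex μ w Ψ := by
  have := ex_mono hw (BM.const 0) h h0
  rwa [ex_const hw] at this

omit hw in
theorem BM.sq' (h : BM Ψ) : BM (fun z => Ψ z ^ 2) := by simpa only [sq] using h.mul h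

/-- Cauchy Schwarz. -/
theorem ex_mul_sq_le (h : BM Ψ) (h' : BM Φ) :
    ex μ w (fun z => Ψ z * Φ z) ^ 2 ≤ ex μ w (fun z => Ψ z ^ 2) * ex μ w (fun z => Φ z ^ 2) := by
  set A := ex μ w (fun z => Ψ z ^ 2) with hA
  set B := ex μ w (fun z => Ψ z * Φ z) with hB
  set C := ex μ w (fun z => Φ z ^ 2) with hC
  have key : ∀ t : ℝ, 0 ≤ C * (t * t) + (-(2 * B)) * t + A := by
    intro t
    have h1 : 0 ≤ ex μ w (fun z => (Ψ z + (-t) * Φ z) ^ 2) :=
      ex_nonneg hw (BM.sq' (h.add ((BM.const _).mul h'))) fun z => sq_nonneg _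
    have e : (fun z => (Ψ z + (-t) * Φ z) ^ 2)
        = fun z => (Ψ z ^ 2 + (-(2 * t)) * (Ψ z * Φ z)) + (t * t) * Φ z ^ 2 := by
      funext z; ring
    rw [e, ex_add hw ((BM.sq' h).add ((BM.const _).mul (h.mul h')))
        ((BM.const _).mul (BM.sq' h')),
      ex_add hw (BM.sq' h) ((BM.const _).mul (h.mul h')), ex_const_mul, ex_const_mul,
      ← hA, ← hB, ← hC] at h1
    linarith
  have := discrim_le_zero key
  unfold discrim at this
  nlinarith

theorem ex_mul_le (h : BM Ψ) (h' : BM Φ) :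
    |ex μ w (fun z => Ψ z * Φ z)|
      ≤ √(ex μ w (fun z => Ψ z ^ 2)) * √(ex μ w (fun z => Φ z ^ 2)) := by
  rw [← Real.sqrt_mul (ex_nonneg hw (BM.sq' h) fun z => sq_nonneg _)]
  exact Real.abs_le_sqrt (ex_mul_sq_le hw h h')

end ex

/-! ### exchange of two sites -/

/-- a symmetry of the weight which respects the revealed set `K`. -/
structure Sy (μ : κ → Measure ℝ) [∀ e, IsProbabilityMeasure (μ e)] (w : (κ → ℝ) → ℝ)
    (K : Finset κ) (T : (κ → ℝ) → (κ → ℝ)) : Prop where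
  mp : MeasurePreserving T (Measure.pi μ) (Measure.pi μ)
  wt : ∀ z, w (T z) = w z
  gl : ∀ z z', T (glue K z z') = glue K (T z) (T z')

theorem Sy.cx (hw : Wt μ w) {T : (κ → ℝ) → (κ → ℝ)} (hT : Sy μ w K T) (hf : BM f)
    (hfg : ∀ z, f (T z) = g z) (z : κ → ℝ) :
    H646.cx μ K w g z = H646.cx μ K w f (T z) := by
  have h := cx_equiv (K := K) (K' := K) hw hT.mp hT.wt hT.gl hf z
  have e : g = fun z => f (T z) := by funext z; exact (hfg z).symm
  rw [e, h]

/-- a symmetry exchanges the tested moments of the conditional means. -/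
theorem exch_sq (hw : Wt μ w) {T : (κ → ℝ) → (κ → ℝ)} (hT : Sy μ w K' T) (hf : BM f)
    (hfg : ∀ z, f (T z) = g z) (hψ : BM ψ) (hψT : ∀ z, ψ (T z) = ψ z) (m : ℕ) :
    ex μ w (fun z => ψ z * cx μ K' w g z ^ m) = ex μ w (fun z => ψ z * cx μ K' w f z ^ m) := by
  have h1 : Measurable (fun z => ψ z * cx μ K' w f z ^ m) :=
    hψ.meas.mul ((hw.bm_cx K' hf).meas.pow_const m)
  have h2 := ex_equiv hw hT.mp hT.wt h1
  rw [← h2]
  congr 1
  funext z
  show ψ z * cx μ K' w g z ^ m = ψ (T z) * cx μ K' w f (T z) ^ m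
  rw [hψT, Sy.cx hw hT hf hfg]

theorem exch_pow (hw : Wt μ w) {T : (κ → ℝ) → (κ → ℝ)} (hT : Sy μ w K' T) (hf : BM f)
    (hfg : ∀ z, f (T z) = g z) (m : ℕ) :
    ex μ w (fun z => cx μ K' w g z ^ m) = ex μ w (fun z => cx μ K' w f z ^ m) := by
  have := exch_sq hw hT hf hfg (BM.const 1) (fun _ => rfl) m
  simpa using this

/-- with a test function depending on `K` only, the energy of the finer conditional mean splits. -/
theorem ex_test_split (hw : Wt μ w) (hK : K ⊆ K') (hψ : BM ψ) (hd : Dep K ψ) (hf : BM f) :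
    ex μ w (fun z => ψ z * cx μ K' w f z ^ 2)
      = ex μ w (fun z => ψ z * cx μ K w f z ^ 2)
        + ex μ w (fun z => ψ z * (cx μ K' w f z - cx μ K w f z) ^ 2) := by
  have hb := hw.bm_cx K hf
  have hb' := hw.bm_cx K' hf
  have e1 : ex μ w (fun z => (ψ z * cx μ K w f z) * cx μ K' w f z)
      = ex μ w (fun z => ψ z * cx μ K w f z ^ 2) := by
    have hdd : Dep K (fun z => ψ z * cx μ K w f z) := by
      intro z z'; simp only [hd z z', dep_cx K z z']
    have := ex_cx hw (K := K) hdd (hψ.mul hb) (Ψ := cx μ K' w f) hb'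
    rw [← this]
    congr 1
    funext z
    rw [cx_cx hw hK hf]; ring
  have e2 : (fun z => ψ z * (cx μ K' w f z - cx μ K w f z) ^ 2)
      = fun z => (ψ z * cx μ K' w f z ^ 2 + (-2) * ((ψ z * cx μ K w f z) * cx μ K' w f z))
        + ψ z * cx μ K w f z ^ 2 := by
    funext z; ring
  rw [e2, ex_add hw ((hψ.mul (BM.sq' hb')).add ((BM.const _).mul ((hψ.mul hb).mul hb')))
      (hψ.mul (BM.sq' hb)),
    ex_add hw (hψ.mul (BM.sq' hb')) ((BM.const _).mul ((hψ.mul hb).mul hb')), ex_const_mul, e1]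
  ring

/-- **tested comparison of the new site with the old ones.**
`ψ` depends on the coordinates of `K`, `ψ'` is a symmetric version of it (one for `K'`). -/
theorem regk_test {ι : Type*} (hw : Wt μ w) (hK : K ⊆ K') {S : Finset ι} (hS : S.Nonempty)
    {F : ι → (κ → ℝ) → ℝ} (hF : ∀ j ∈ S, BM (F j)) (hf : BM f)
    (hψ : BM ψ) (hd : Dep K ψ) (hψ' : BM ψ') {C : ℝ} (hC : ∀ z, |ψ z| ≤ C)
    (hsw : ∀ j ∈ S, ∃ T : (κ → ℝ) → (κ → ℝ), Sy μ w K' T ∧ (∀ z, f (T z) = F j z) ∧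
      ∀ z, ψ' (T z) = ψ' z) :
    |ex μ w (fun z => ψ z * cx μ K' w f z ^ 2)
        - (∑ j ∈ S, ex μ w (fun z => ψ z * cx μ K w (F j) z ^ 2)) / S.card|
      ≤ C * (∑ j ∈ S, (ex μ w (fun z => cx μ K' w (F j) z ^ 2)
            - ex μ w (fun z => cx μ K w (F j) z ^ 2))) / S.card
        + 2 * (√(ex μ w (fun z => (ψ' z - ψ z) ^ 2)) * √(ex μ w (fun z => cx μ K' w f z ^ 4))) := by
  classical
  set D := √(ex μ w (fun z => (ψ' z - ψ z) ^ 2)) * √(ex μ w (fun z => cx μ K' w f z ^ 4)) with hD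
  have hc : (0 : ℝ) < S.card := by exact_mod_cast hS.card_pos
  have hbf := hw.bm_cx K' hf
  have hdif : BM (fun z => ψ' z - ψ z) := hψ'.sub hψ
  -- first error term
  have a1 : |ex μ w (fun z => ψ' z * cx μ K' w f z ^ 2)
      - ex μ w (fun z => ψ z * cx μ K' w f z ^ 2)| ≤ D := by
    rw [← ex_sub hw (hψ'.mul (BM.sq' hbf)) (hψ.mul (BM.sq' hbf))]
    have e : (fun z => ψ' z * cx μ K' w f z ^ 2 - ψ z * cx μ K' w f z ^ 2)
        = fun z => (ψ' z - ψ z) * cx μ K' w f z ^ 2 := by funext z; ring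
    rw [e]
    refine (ex_mul_le hw hdif (BM.sq' hbf)).trans (le_of_eq ?_)
    rw [hD]
    congr 2
    congr 1
    funext z
    ring
  -- the exchanged terms
  have a2 : ∀ j ∈ S, |ex μ w (fun z => ψ' z * cx μ K' w f z ^ 2)
      - ex μ w (fun z => ψ z * cx μ K' w (F j) z ^ 2)| ≤ D := by
    intro j hj
    obtain ⟨T, hT, hfT, hψT⟩ := hsw j hj
    have hbj := hw.bm_cx K' (hF j hj)
    rw [← exch_sq hw hT hf hfT hψ' hψT 2,
      ← ex_sub hw (hψ'.mul (BM.sq' hbj)) (hψ.mul (BM.sq' hbj))]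
    have e : (fun z => ψ' z * cx μ K' w (F j) z ^ 2 - ψ z * cx μ K' w (F j) z ^ 2)
        = fun z => (ψ' z - ψ z) * cx μ K' w (F j) z ^ 2 := by funext z; ring
    rw [e]
    refine (ex_mul_le hw hdif (BM.sq' hbj)).trans (le_of_eq ?_)
    rw [hD, ← exch_pow hw hT hf hfT 4]
    congr 2
    congr 1
    funext z
    ring
  -- the split
  have a3 : ∀ j ∈ S, |ex μ w (fun z => ψ z * cx μ K' w (F j) z ^ 2)
      - ex μ w (fun z => ψ z * cx μ K w (F j) z ^ 2)|
      ≤ C * (ex μ w (fun z => cx μ K' w (F j) z ^ 2) - ex μ w (fun z => cx μ K w (F j) z ^ 2)) := by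
    intro j hj
    have hbj := hw.bm_cx K' (hF j hj)
    have hbj0 := hw.bm_cx K (hF j hj)
    rw [ex_test_split hw hK hψ hd (hF j hj), add_sub_cancel_left,
      ← ex_sub_sq hw hK (hF j hj), ← ex_const_mul, abs_le]
    constructor
    · have h1 := ex_nonneg hw (Ψ := fun z => ψ z * (cx μ K' w (F j) z - cx μ K w (F j) z) ^ 2
          + C * (cx μ K' w (F j) z - cx μ K w (F j) z) ^ 2)
        ((hψ.mul (BM.sq' (hbj.sub hbj0))).add ((BM.const _).mul (BM.sq' (hbj.sub hbj0))))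
        (fun z => by
          have := abs_le.1 (hC z)
          nlinarith [sq_nonneg (cx μ K' w (F j) z - cx μ K w (F j) z)])
      rw [ex_add hw (hψ.mul (BM.sq' (hbj.sub hbj0)))
        ((BM.const _).mul (BM.sq' (hbj.sub hbj0)))] at h1
      linarith
    · refine ex_mono hw (hψ.mul (BM.sq' (hbj.sub hbj0)))
        ((BM.const _).mul (BM.sq' (hbj.sub hbj0))) fun z => ?_
      exact mul_le_mul_of_nonneg_right ((le_abs_self _).trans (hC z)) (sq_nonneg _)
  -- assembling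
  have a4 : ∀ j ∈ S, |ex μ w (fun z => ψ z * cx μ K' w f z ^ 2)
      - ex μ w (fun z => ψ z * cx μ K w (F j) z ^ 2)| ≤ 2 * D
        + C * (ex μ w (fun z => cx μ K' w (F j) z ^ 2)
          - ex μ w (fun z => cx μ K w (F j) z ^ 2)) := by
    intro j hj
    have h1 := abs_le.1 a1
    have h2 := abs_le.1 (a2 j hj)
    have h3 := abs_le.1 (a3 j hj)
    rw [abs_le]
    constructor <;> linarith [h1.1, h1.2, h2.1, h2.2, h3.1, h3.2]
  have e1 : ex μ w (fun z => ψ z * cx μ K' w f z ^ 2)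
        - (∑ j ∈ S, ex μ w (fun z => ψ z * cx μ K w (F j) z ^ 2)) / S.card
      = (∑ j ∈ S, (ex μ w (fun z => ψ z * cx μ K' w f z ^ 2)
        - ex μ w (fun z => ψ z * cx μ K w (F j) z ^ 2))) / S.card := by
    rw [Finset.sum_sub_distrib, Finset.sum_const, nsmul_eq_mul]
    field_simp
  rw [e1, abs_div, abs_of_pos hc, div_le_iff₀ hc]
  refine (Finset.abs_sum_le_sum_abs _ _).trans ((Finset.sum_le_sum a4).trans (le_of_eq ?_))
  rw [Finset.sum_add_distrib, Finset.sum_const, nsmul_eq_mul, ← Finset.mul_sum]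
  field_simp
  ring


/-! ### the norm of the vector of conditional means as a statistic -/

/-- the norm of a vector changes by at most the norm of the difference, one new coordinate. -/
theorem sqrt_sub_sq_le {ι : Type*} (S : Finset ι) (a b : ι → ℝ) (c : ℝ) :
    (√(∑ j ∈ S, a j ^ 2 + c ^ 2) - √(∑ j ∈ S, b j ^ 2)) ^ 2
      ≤ ∑ j ∈ S, (a j - b j) ^ 2 + c ^ 2 := by
  have hA : 0 ≤ ∑ j ∈ S, a j ^ 2 := Finset.sum_nonneg fun _ _ => sq_nonneg _
  have hB : 0 ≤ ∑ j ∈ S, b j ^ 2 := Finset.sum_nonneg fun _ _ => sq_nonneg _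
  have h1 : ∑ j ∈ S, a j * b j ≤ √(∑ j ∈ S, a j ^ 2 + c ^ 2) * √(∑ j ∈ S, b j ^ 2) := by
    refine (Real.sum_mul_le_sqrt_mul_sqrt S a b).trans ?_
    exact mul_le_mul_of_nonneg_right (Real.sqrt_le_sqrt (by nlinarith [sq_nonneg c]))
      (Real.sqrt_nonneg _)
  have h2 : ∑ j ∈ S, (a j - b j) ^ 2
      = ∑ j ∈ S, a j ^ 2 + ∑ j ∈ S, b j ^ 2 - 2 * ∑ j ∈ S, a j * b j := by
    rw [Finset.mul_sum, ← Finset.sum_add_distrib, ← Finset.sum_sub_distrib]
    exact Finset.sum_congr rfl fun _ _ => by ring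
  have h3 := Real.sq_sqrt (show 0 ≤ ∑ j ∈ S, a j ^ 2 + c ^ 2 by positivity)
  have h4 := Real.sq_sqrt hB
  rw [h2]
  nlinarith

/-- the statistic `|M|` for the block `K` and the sites in `S`. -/
noncomputable def nrm (μ : κ → Measure ℝ) {ι : Type*} (K : Finset κ) (w : (κ → ℝ) → ℝ)
    (S : Finset ι) (F : ι → (κ → ℝ) → ℝ) (z : κ → ℝ) : ℝ :=
  √(∑ j ∈ S, cx μ K w (F j) z ^ 2)

theorem dep_nrm {ι : Type*} (S : Finset ι) (F : ι → (κ → ℝ) → ℝ) : Dep K (nrm μ K w S F) := by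
  intro z z'
  unfold nrm
  congr 1
  exact Finset.sum_congr rfl fun j _ => by rw [dep_cx K z z']

theorem BM.sqrt (h : BM Ψ) : BM (fun z => √(Ψ z)) := by
  obtain ⟨C, hC⟩ := h.bd
  refine ⟨h.meas.sqrt, √C, fun z => ?_⟩
  rw [abs_of_nonneg (Real.sqrt_nonneg _)]
  exact Real.sqrt_le_sqrt ((le_abs_self _).trans (hC z))

theorem bm_nrm {ι : Type*} (hw : Wt μ w) (K : Finset κ) {S : Finset ι} {F : ι → (κ → ℝ) → ℝ}
    (hF : ∀ j ∈ S, BM (F j)) : BM (nrm μ K w S F) :=
  BM.sqrt (BM.sum S fun j hj => BM.sq' (hw.bm_cx K (hF j hj)))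

theorem nrm_sq {ι : Type*} (S : Finset ι) (F : ι → (κ → ℝ) → ℝ) (z : κ → ℝ) :
    nrm μ K w S F z ^ 2 = ∑ j ∈ S, cx μ K w (F j) z ^ 2 :=
  Real.sq_sqrt (Finset.sum_nonneg fun _ _ => sq_nonneg _)

/-- the norm statistic moves little in one step. -/
theorem nrm_step {ι : Type*} [DecidableEq ι] (hw : Wt μ w) (hK : K ⊆ K') {S : Finset ι} {i0 : ι}
    (hi : i0 ∉ S) {F : ι → (κ → ℝ) → ℝ} (hF : ∀ j ∈ insert i0 S, BM (F j)) :
    ex μ w (fun z => (nrm μ K' w (insert i0 S) F z - nrm μ K w S F z) ^ 2)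
      ≤ (∑ j ∈ S, (ex μ w (fun z => cx μ K' w (F j) z ^ 2)
            - ex μ w (fun z => cx μ K w (F j) z ^ 2)))
        + ex μ w (fun z => cx μ K' w (F i0) z ^ 2) := by
  have hFS : ∀ j ∈ S, BM (F j) := fun j hj => hF j (Finset.mem_insert_of_mem hj)
  have hFi : BM (F i0) := hF i0 (Finset.mem_insert_self _ _)
  have b1 : ∀ j ∈ S, BM (fun z => (cx μ K' w (F j) z - cx μ K w (F j) z) ^ 2) := fun j hj =>
    BM.sq' ((hw.bm_cx K' (hFS j hj)).sub (hw.bm_cx K (hFS j hj)))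
  have b2 : BM (fun z => cx μ K' w (F i0) z ^ 2) := BM.sq' (hw.bm_cx K' hFi)
  have h1 : ex μ w (fun z => (nrm μ K' w (insert i0 S) F z - nrm μ K w S F z) ^ 2)
      ≤ ex μ w (fun z => (∑ j ∈ S, (cx μ K' w (F j) z - cx μ K w (F j) z) ^ 2)
        + cx μ K' w (F i0) z ^ 2) := by
    refine ex_mono hw (BM.sq' ((bm_nrm hw K' hF).sub (bm_nrm hw K hFS)))
      ((BM.sum S b1).add b2) fun z => ?_
    have := sqrt_sub_sq_le S (fun j => cx μ K' w (F j) z) (fun j => cx μ K w (F j) z)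
      (cx μ K' w (F i0) z)
    unfold nrm
    rw [Finset.sum_insert hi, add_comm (cx μ K' w (F i0) z ^ 2)]
    exact this
  refine h1.trans (le_of_eq ?_)
  rw [ex_add hw (BM.sum S b1) b2, ex_sum hw S b1]
  congr 1
  exact Finset.sum_congr rfl fun j hj => ex_sub_sq hw hK (hFS j hj)

/-- a symmetry which permutes the sites of `S` fixes the norm statistic. -/
theorem nrm_sy {ι : Type*} (hw : Wt μ w) {T : (κ → ℝ) → (κ → ℝ)} (hT : Sy μ w K T)
    {S : Finset ι} {F : ι → (κ → ℝ) → ℝ} (hF : ∀ j ∈ S, BM (F j)) {σ : Equiv.Perm ι}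
    (hσ : ∀ j, σ j ∈ S ↔ j ∈ S) (hFσ : ∀ j ∈ S, ∀ z, F j (T z) = F (σ j) z) (z : κ → ℝ) :
    nrm μ K w S F (T z) = nrm μ K w S F z := by
  unfold nrm
  congr 1
  have h1 : ∑ j ∈ S, cx μ K w (F j) (T z) ^ 2 = ∑ j ∈ S, cx μ K w (F (σ j)) z ^ 2 :=
    Finset.sum_congr rfl fun j hj => by
      rw [← Sy.cx hw hT (hF j hj) (fun z => hFσ j hj z) z]
  rw [h1]
  exact Finset.sum_equiv σ (fun j => (hσ j).symm) fun j _ => rfl

/-! ### Lipschitz test functions of several statistics -/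

/-- Minkowski, in the form used below. -/
theorem ex_sq_le_of_abs_le {A : Type*} [Fintype A] (hw : Wt μ w) {d : A → (κ → ℝ) → ℝ}
    (hd : ∀ a, BM (d a)) (hg : BM g) {L : A → ℝ} (hL : ∀ a, 0 ≤ L a)
    (hle : ∀ z, |g z| ≤ ∑ a, L a * |d a z|) :
    ex μ w (fun z => g z ^ 2) ≤ (∑ a, L a * √(ex μ w (fun z => d a z ^ 2))) ^ 2 := by
  have habs : ∀ a, BM (fun z => |d a z|) := by
    intro a
    obtain ⟨C, hC⟩ := (hd a).bd
    exact ⟨continuous_abs.measurable.comp (hd a).meas, C, fun z => by rw [abs_abs]; exact hC z⟩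
  have h1 : ex μ w (fun z => g z ^ 2)
      ≤ ex μ w (fun z => ∑ a, ∑ b, (L a * L b) * (|d a z| * |d b z|)) := by
    refine ex_mono hw (BM.sq' hg) (BM.sum _ fun a _ => BM.sum _ fun b _ =>
      (BM.const _).mul ((habs a).mul (habs b))) fun z => ?_
    have h2 : g z ^ 2 ≤ (∑ a, L a * |d a z|) ^ 2 := by
      rw [← sq_abs]
      exact pow_le_pow_left₀ (abs_nonneg _) (hle z) 2
    refine h2.trans (le_of_eq ?_)
    rw [sq, Finset.sum_mul_sum]
    exact Finset.sum_congr rfl fun a _ => Finset.sum_congr rfl fun b _ => by ring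
  refine h1.trans ?_
  rw [ex_sum hw _ fun a _ => BM.sum _ fun b _ => (BM.const _).mul ((habs a).mul (habs b))]
  have h3 : ∀ a, ex μ w (fun z => ∑ b, (L a * L b) * (|d a z| * |d b z|))
      ≤ ∑ b, (L a * √(ex μ w (fun z => d a z ^ 2))) * (L b * √(ex μ w (fun z => d b z ^ 2))) := by
    intro a
    rw [ex_sum hw _ fun b _ => (BM.const _).mul ((habs a).mul (habs b))]
    refine Finset.sum_le_sum fun b _ => ?_
    rw [ex_const_mul]
    have h4 := (le_abs_self _).trans (ex_mul_le hw (habs a) (habs b))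
    have e : ∀ c, (fun z => |d c z| ^ 2) = fun z => d c z ^ 2 := fun c => by
      funext z; exact sq_abs _
    rw [e, e] at h4
    calc L a * L b * ex μ w (fun z => |d a z| * |d b z|)
        ≤ L a * L b * (√(ex μ w (fun z => d a z ^ 2)) * √(ex μ w (fun z => d b z ^ 2))) :=
          mul_le_mul_of_nonneg_left h4 (mul_nonneg (hL a) (hL b))
      _ = _ := by ring
  refine (Finset.sum_le_sum fun a _ => h3 a).trans (le_of_eq ?_)
  rw [sq, Finset.sum_mul_sum]

/-- **the tested comparison for a Lipschitz function of finitely many statistics.**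
`X a` is the statistic for `K`, `X' a` the one for `K'`, symmetric in the sites of the larger
block; `ε a` bounds the `L2` size of the step. -/
theorem regk_lip {ι A : Type*} [Fintype A] (hw : Wt μ w) (hK : K ⊆ K') {S : Finset ι}
    (hS : S.Nonempty) {F : ι → (κ → ℝ) → ℝ} (hF : ∀ j ∈ S, BM (F j)) (hf : BM f)
    {X X' : A → (κ → ℝ) → ℝ} (hX : ∀ a, BM (X a)) (hX' : ∀ a, BM (X' a))
    (hdX : ∀ a, Dep K (X a)) {G : (A → ℝ) → ℝ} (hG : Measurable G) {C : ℝ} (hC : ∀ x, |G x| ≤ C)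
    {L : A → ℝ} (hL : ∀ a, 0 ≤ L a) (hlip : ∀ x y, |G x - G y| ≤ ∑ a, L a * |x a - y a|)
    (hsw : ∀ j ∈ S, ∃ T : (κ → ℝ) → (κ → ℝ), Sy μ w K' T ∧ (∀ z, f (T z) = F j z) ∧
      ∀ a z, X' a (T z) = X' a z) :
    |ex μ w (fun z => G (fun a => X a z) * cx μ K' w f z ^ 2)
        - (∑ j ∈ S, ex μ w (fun z => G (fun a => X a z) * cx μ K w (F j) z ^ 2)) / S.card|
      ≤ C * (∑ j ∈ S, (ex μ w (fun z => cx μ K' w (F j) z ^ 2)
            - ex μ w (fun z => cx μ K w (F j) z ^ 2))) / S.card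
        + 2 * ((∑ a, L a * √(ex μ w (fun z => (X' a z - X a z) ^ 2)))
          * √(ex μ w (fun z => cx μ K' w f z ^ 4))) := by
  have m1 : BM (fun z => G (fun a => X a z)) :=
    ⟨hG.comp (measurable_pi_lambda _ fun a => (hX a).meas), C, fun z => hC _⟩
  have m2 : BM (fun z => G (fun a => X' a z)) :=
    ⟨hG.comp (measurable_pi_lambda _ fun a => (hX' a).meas), C, fun z => hC _⟩
  have h := regk_test (ψ := fun z => G (fun a => X a z)) (ψ' := fun z => G (fun a => X' a z))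
    hw hK hS hF hf m1 (fun z z' => by simp only [hdX _ z z']) m2 (fun z => hC _)
    (fun j hj => by
      obtain ⟨T, h1, h2, h3⟩ := hsw j hj
      exact ⟨T, h1, h2, fun z => by simp only [h3]⟩)
  refine h.trans ?_
  have h5 := ex_sq_le_of_abs_le (g := fun z => G (fun a => X' a z) - G (fun a => X a z)) hw
    (fun a => (hX' a).sub (hX a)) (m2.sub m1) hL (fun z => hlip _ _)
  have h6 : √(ex μ w (fun z => (G (fun a => X' a z) - G (fun a => X a z)) ^ 2))
      ≤ ∑ a, L a * √(ex μ w (fun z => (X' a z - X a z) ^ 2)) := by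
    rw [← Real.sqrt_sq (Finset.sum_nonneg fun a _ => mul_nonneg (hL a) (Real.sqrt_nonneg
      (ex μ w (fun z => (X' a z - X a z) ^ 2))))]
    exact Real.sqrt_le_sqrt h5
  have h7 := mul_le_mul_of_nonneg_right h6 (Real.sqrt_nonneg (ex μ w (fun z => cx μ K' w f z ^ 4)))
  linarith

/-! ### typical steps -/

/-- **typical step, simultaneously for finitely many monotone sequences.** -/
theorem exists_typical {A : Type*} [Fintype A] (q : A → ℕ → ℝ) {k0 L : ℕ} (hL : 0 < L)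
    (hq : ∀ a k, k0 ≤ k → k < k0 + L → q a k ≤ q a (k + 1)) :
    ∃ k, k0 ≤ k ∧ k < k0 + L ∧
      ∀ a, q a (k + 1) - q a k ≤ Fintype.card A * (q a (k0 + L) - q a k0) / L := by
  classical
  have hLR : (0 : ℝ) < L := by exact_mod_cast hL
  -- telescoping
  have tel : ∀ a, ∑ k ∈ Finset.range L, (q a (k0 + k + 1) - q a (k0 + k))
      = q a (k0 + L) - q a k0 := by
    intro a
    have := Finset.sum_range_sub (fun k => q a (k0 + k)) L
    simpa [add_assoc] using this
  have inc : ∀ a, ∀ k ∈ Finset.range L, 0 ≤ q a (k0 + k + 1) - q a (k0 + k) := by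
    intro a k hk
    have := hq a (k0 + k) (by omega) (by have := Finset.mem_range.1 hk; omega)
    linarith
  have tot : ∀ a, 0 ≤ q a (k0 + L) - q a k0 := fun a => by
    rw [← tel]; exact Finset.sum_nonneg (inc a)
  set c : A → ℝ := fun a => if q a (k0 + L) - q a k0 = 0 then 0 else 1 / (q a (k0 + L) - q a k0)
    with hc
  have c0 : ∀ a, 0 ≤ c a := by
    intro a; simp only [hc]; split_ifs
    · exact le_rfl
    · exact one_div_nonneg.2 (tot a)
  have csum : ∀ a, c a * (q a (k0 + L) - q a k0) ≤ 1 := by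
    intro a; simp only [hc]; split_ifs with h
    · simp
    · rw [one_div_mul_cancel h]
  have hsum : ∑ k ∈ Finset.range L, ∑ a, c a * (q a (k0 + k + 1) - q a (k0 + k))
      ≤ ∑ k ∈ Finset.range L, (Fintype.card A : ℝ) / L := by
    rw [Finset.sum_comm, Finset.sum_const, Finset.card_range, nsmul_eq_mul,
      mul_div_cancel₀ _ hLR.ne']
    calc ∑ a, ∑ k ∈ Finset.range L, c a * (q a (k0 + k + 1) - q a (k0 + k))
        = ∑ a, c a * (q a (k0 + L) - q a k0) := by
          refine Finset.sum_congr rfl fun a _ => ?_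
          rw [← Finset.mul_sum, tel]
      _ ≤ ∑ _a : A, (1 : ℝ) := Finset.sum_le_sum fun a _ => csum a
      _ = Fintype.card A := by simp
  obtain ⟨k, hk, hle⟩ := Finset.exists_le_of_sum_le (Finset.nonempty_range_iff.2 hL.ne') hsum
  have hkL := Finset.mem_range.1 hk
  refine ⟨k0 + k, by omega, by omega, fun a => ?_⟩
  have h1 : c a * (q a (k0 + k + 1) - q a (k0 + k)) ≤ (Fintype.card A : ℝ) / L :=
    (Finset.single_le_sum (f := fun a => c a * (q a (k0 + k + 1) - q a (k0 + k)))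
      (fun b _ => mul_nonneg (c0 b) (inc b k hk)) (Finset.mem_univ a)).trans hle
  by_cases h0 : q a (k0 + L) - q a k0 = 0
  · have h2 : q a (k0 + k + 1) - q a (k0 + k) ≤ q a (k0 + L) - q a k0 := by
      rw [← tel a]
      exact Finset.single_le_sum (f := fun k => q a (k0 + k + 1) - q a (k0 + k)) (inc a) hk
    rw [h0] at h2 ⊢
    simpa using h2
  · have h2 : 0 < q a (k0 + L) - q a k0 := lt_of_le_of_ne (tot a) (Ne.symm h0)
    have h3 : c a = 1 / (q a (k0 + L) - q a k0) := by simp only [hc, if_neg h0]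
    rw [h3, one_div, inv_mul_le_iff₀ h2] at h1
    calc q a (k0 + k + 1) - q a (k0 + k)
        ≤ (q a (k0 + L) - q a k0) * ((Fintype.card A : ℝ) / L) := h1
      _ = _ := by ring

/-- the number of bad steps. -/
theorem card_bad {A : Type*} [Fintype A] (q : A → ℕ → ℝ) {k0 L : ℕ}
    (hq : ∀ a k, k0 ≤ k → k < k0 + L → q a k ≤ q a (k + 1)) {θ : A → ℝ} (hθ : ∀ a, 0 < θ a) :
    (((Finset.Ico k0 (k0 + L)).filter fun k => ∃ a, θ a < q a (k + 1) - q a k).card : ℝ)
      ≤ ∑ a, (q a (k0 + L) - q a k0) / θ a := by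
  classical
  have tel : ∀ a, ∑ k ∈ Finset.Ico k0 (k0 + L), (q a (k + 1) - q a k)
      = q a (k0 + L) - q a k0 := fun a => Finset.sum_Ico_sub (q a) (by omega)
  have inc : ∀ a, ∀ k ∈ Finset.Ico k0 (k0 + L), 0 ≤ q a (k + 1) - q a k := by
    intro a k hk
    rw [Finset.mem_Ico] at hk
    have := hq a k hk.1 hk.2
    linarith
  have h1 : (((Finset.Ico k0 (k0 + L)).filter fun k => ∃ a, θ a < q a (k + 1) - q a k).card : ℝ)
      ≤ ∑ k ∈ Finset.Ico k0 (k0 + L), ∑ a, (q a (k + 1) - q a k) / θ a := by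
    rw [Finset.card_eq_sum_ones, Nat.cast_sum]
    rw [Finset.sum_filter]
    refine Finset.sum_le_sum fun k hk => ?_
    split_ifs with h
    · obtain ⟨a, ha⟩ := h
      have h2 : (1 : ℝ) ≤ (q a (k + 1) - q a k) / θ a := by
        rw [le_div_iff₀ (hθ a)]; linarith
      refine (by simpa using h2 : ((1 : ℕ) : ℝ) ≤ (q a (k + 1) - q a k) / θ a).trans ?_
      exact Finset.single_le_sum (f := fun a => (q a (k + 1) - q a k) / θ a)
        (fun b _ => div_nonneg (inc b k hk) (hθ b).le) (Finset.mem_univ a)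
    · exact Finset.sum_nonneg fun b _ => div_nonneg (inc b k hk) (hθ b).le
  refine h1.trans (le_of_eq ?_)
  rw [Finset.sum_comm]
  refine Finset.sum_congr rfl fun a _ => ?_
  rw [← Finset.sum_div, tel]

end Vale.Agent.P146.H487
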