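import Vale.Agent.P146.H487.N4
import Vale.Agent.P146.H487.Regk

/-! The conditional form of the tilted Poincare inequality and of the fourth moment bound, in the
language of block conditioning (`cx`, `ex` of H646/Blk) with Gaussian coordinates. -/

open MeasureTheory ProbabilityTheory

namespace Vale.Agent.P146.H487

set_option linter.unusedSectionVars false

open Vale.Agent.P157.Lv (EG PD gI)
open Vale.Agent.P146.H646 (glue wn cx ex Wt BM)

variable {κ : Type} [Fintype κ] [DecidableEq κ]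

/-- the standard Gaussian coordinates. -/
noncomputable abbrev gs (κ : Type) : κ → Measure ℝ := fun _ => gaussianReal 0 1

lemma norm_glue_le (K : Finset κ) (z z' : κ → ℝ) : ‖glue K z z'‖ ≤ ‖z‖ + ‖z'‖ := by
  rw [pi_norm_le_iff_of_nonneg (by positivity)]
  intro e
  unfold glue
  split_ifs
  · exact (norm_le_pi_norm z e).trans (by linarith [norm_nonneg z'])
  · exact (norm_le_pi_norm z' e).trans (by linarith [norm_nonneg z])

theorem eg_glue {F : (κ → ℝ) → ℝ} (hF : EG F) (K : Finset κ) (z : κ → ℝ) :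
    EG (fun z' => F (glue K z z')) := by
  obtain ⟨C, a, hC, ha, h⟩ := hF.bdd
  refine ⟨hF.meas.comp (H646.measurable_glue_right K z), C * Real.exp (a * ‖z‖), a,
    by positivity, ha, fun y => (h _).trans ?_⟩
  rw [mul_assoc, ← Real.exp_add]
  refine mul_le_mul_of_nonneg_left (Real.exp_le_exp.2 ?_) hC
  nlinarith [norm_glue_le K z y]

lemma glue_upd_not {K : Finset κ} {e : κ} (he : e ∉ K) (z z' : κ → ℝ) (t : ℝ) :
    glue K z (Function.update z' e t) = Function.update (glue K z z') e t := by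
  funext j
  by_cases hj : j = e
  · subst hj; simp [glue, he]
  · by_cases hK : j ∈ K <;> simp [glue, hK, hj]

lemma glue_upd_mem {K : Finset κ} {e : κ} (he : e ∈ K) (z z' : κ → ℝ) (t : ℝ) :
    glue K z (Function.update z' e t) = glue K z z' := by
  funext j
  by_cases hj : j = e
  · subst hj; simp [glue, he]
  · by_cases hK : j ∈ K <;> simp [glue, hK, hj]

theorem pd_glue {F F' : (κ → ℝ) → ℝ} {e : κ} (K : Finset κ) (he : e ∉ K) (h : PD e F F')
    (z : κ → ℝ) : PD e (fun z' => F (glue K z z')) (fun z' => F' (glue K z z')) := by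
  intro y x
  have h1 := h (glue K z y) x
  simp only [glue_upd_not he]
  exact h1

theorem pd_glue_mem {F : (κ → ℝ) → ℝ} {e : κ} (K : Finset κ) (he : e ∈ K)
    (z : κ → ℝ) : PD e (fun z' => F (glue K z z')) (fun _ => 0) := by
  intro y x
  simp only [glue_upd_mem he]
  exact hasDerivAt_const _ _

/-- a function which depends on `K'` only has derivative zero off `K'`. -/
theorem pd_dep {F : (κ → ℝ) → ℝ} {e : κ} {K' : Finset κ} (he : e ∉ K') (h : H646.Dep K' F) :
    PD e F (fun _ => 0) := by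
  intro y x
  have h1 : ∀ t, F (Function.update y e t) = F y := fun t => by
    have h2 := h y (Function.update y e t)
    have h3 : glue K' y (Function.update y e t) = Function.update y e t := by
      funext j
      by_cases hj : j ∈ K'
      · have : j ≠ e := fun h => he (h ▸ hj)
        simp [glue, hj, this]
      · simp [glue, hj]
    rw [h3] at h2
    exact h2
  simp only [h1]
  exact hasDerivAt_const _ _

/-- the gradient in the coordinates of `A`, zero elsewhere. -/
noncomputable def onA (A : Finset κ) (f' : κ → (κ → ℝ) → ℝ) (e : κ) (z : κ → ℝ) : ℝ :=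
  if e ∈ A then f' e z else 0

lemma sum_onA (A : Finset κ) (f' : κ → (κ → ℝ) → ℝ) (z : κ → ℝ) :
    ∑ e, onA A f' e z ^ 2 = ∑ e ∈ A, f' e z ^ 2 := by
  unfold onA
  rw [← Finset.sum_filter_add_sum_filter_not Finset.univ (· ∈ A)]
  rw [Finset.sum_congr rfl (g := fun e => f' e z ^ 2) (fun e he => by
      rw [if_pos (Finset.mem_filter.1 he).2]),
    Finset.sum_congr rfl (s₁ := Finset.univ.filter fun e => ¬ e ∈ A) (g := fun _ => (0 : ℝ))
      (fun e he => by rw [if_neg (Finset.mem_filter.1 he).2]; ring)]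
  rw [Finset.sum_const_zero, add_zero]
  congr 1
  ext e; simp

lemma eg_onA {A : Finset κ} {f' : κ → (κ → ℝ) → ℝ} (h : ∀ e ∈ A, EG (f' e)) (e : κ) :
    EG (onA A f' e) := by
  unfold onA
  by_cases he : e ∈ A
  · simpa only [he, if_true] using h e he
  · simpa only [he, if_false] using EG.const (ι := κ) 0

section cond

variable {w : (κ → ℝ) → ℝ} {K K' : Finset κ}

/-- the derivatives of the frozen function. -/
theorem pd_frozen {f : (κ → ℝ) → ℝ} {f' : κ → (κ → ℝ) → ℝ} (hd : H646.Dep K' f)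
    (hf : ∀ e ∈ K' \ K, PD e f (f' e)) (z : κ → ℝ) (e : κ) :
    PD e (fun z' => f (glue K z z')) (fun z' => onA (K' \ K) f' e (glue K z z')) := by
  by_cases h1 : e ∈ K
  · have h2 : e ∉ K' \ K := fun h => (Finset.mem_sdiff.1 h).2 h1
    have h3 := pd_glue_mem (F := f) K h1 z
    unfold onA
    simpa only [h2, if_false] using h3
  · by_cases h2 : e ∈ K'
    · have h3 : e ∈ K' \ K := Finset.mem_sdiff.2 ⟨h2, h1⟩
      have h4 := pd_glue K h1 (hf e h3) z
      unfold onA
      simpa only [h3, if_true] using h4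
    · have h3 : e ∉ K' \ K := fun h => h2 (Finset.mem_sdiff.1 h).1
      have h4 := pd_glue K h1 (pd_dep h2 hd) z
      unfold onA
      simpa only [h3, if_false] using h4

/-- integrals over the coordinates off `K` in terms of the conditional mean. -/
theorem int_wn_glue (hw : Wt (gs κ) w) (hK : K ⊆ K') {Ψ : (κ → ℝ) → ℝ} (hd : H646.Dep K' Ψ)
    (hb : BM Ψ) (z : κ → ℝ) :
    ∫ z', wn (gs κ) K' w (glue K z z') * Ψ (glue K z z') ∂(gI κ)
      = wn (gs κ) K w z * cx (gs κ) K w Ψ z := by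
  rw [H646.wn_mul_cx hw]
  have hw' : Wt (gs κ) (fun z' => w (glue K z z')) := by
    refine ⟨fun z' => hw.pos _, hw.meas.comp (H646.measurable_glue_right K z), fun L y => ?_⟩
    have e : (fun z' => w (glue K z (glue L y z')))
        = fun z' => w (glue (K ∪ L) (glue K z y) z') := by
      funext z'
      congr 1
      funext e
      by_cases h1 : e ∈ K
      · simp [glue, h1]
      · by_cases h2 : e ∈ L <;> simp [glue, h1, h2]
    rw [e]
    exact hw.sec _ _
  have hΨ : BM (fun z' => Ψ (glue K z z')) := hb.comp (H646.measurable_glue_right K z)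
  have hdz : H646.Dep K' (fun z' => Ψ (glue K z z')) := by
    intro y y'
    show Ψ (glue K z (glue K' y y')) = Ψ (glue K z y)
    rw [← H646.glue_glue_of_subset hK, hd]
  have h1 := H646.integral_wn hw' (K := K') hdz hΨ (BM.const 1)
  simp only [mul_one] at h1
  have h2 : ∀ z', cx (gs κ) K' (fun z' => w (glue K z z')) (fun _ => (1 : ℝ)) z' = 1 :=
    fun z' => H646.cx_one hw' z'
  have h3 : ∀ z', wn (gs κ) K' (fun z' => w (glue K z z')) z' = wn (gs κ) K' w (glue K z z') := by
    intro z'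
    unfold wn
    simp only [H646.glue_glue_of_subset hK]
  simp only [h2, h3, mul_one] at h1
  have h4 : ∫ z', wn (gs κ) K' w (glue K z z') * Ψ (glue K z z') ∂(gI κ)
      = ∫ z', Ψ (glue K z z') * wn (gs κ) K' w (glue K z z') ∂(Measure.pi (gs κ)) := by
    refine integral_congr_ae (Filter.Eventually.of_forall fun z' => ?_)
    show wn (gs κ) K' w (glue K z z') * Ψ (glue K z z')
      = Ψ (glue K z z') * wn (gs κ) K' w (glue K z z')
    ring
  rw [h4, ← h1]

/-- **conditional variance**: `f` depends on `K'`; the variance given `K` is at most `4` times the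
conditional mean of the squared gradient in the new coordinates. -/
theorem var_cx (hw : Wt (gs κ) w) (hK : K ⊆ K') {f : (κ → ℝ) → ℝ} {f' V' : κ → (κ → ℝ) → ℝ}
    {L : ℝ} (hf : BM f) (hdf : H646.Dep K' f) (hfd : ∀ e ∈ K' \ K, PD e f (f' e))
    (hf' : ∀ e ∈ K' \ K, BM (f' e)) (hdf' : ∀ e ∈ K' \ K, H646.Dep K' (f' e))
    (hV : ∀ e ∈ K' \ K, PD e (fun z => Real.log (wn (gs κ) K' w z)) (V' e))
    (hV' : ∀ e ∈ K' \ K, EG (V' e)) (hwn : EG (wn (gs κ) K' w))
    (hL : ∀ z, ∑ e ∈ K' \ K, V' e z ^ 2 ≤ L ^ 2) (hL0 : 0 ≤ L) (hL1 : L ≤ 1 / 2) (z : κ → ℝ) :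
    cx (gs κ) K w (fun z => (f z - cx (gs κ) K w f z) ^ 2) z
      ≤ 4 * cx (gs κ) K w (fun z => ∑ e ∈ K' \ K, f' e z ^ 2) z := by
  have hexp : ∀ z, Real.exp (Real.log (wn (gs κ) K' w z)) = wn (gs κ) K' w z := fun z =>
    Real.exp_log (hw.wn_pos K' z)
  have hh : EG (fun z => Real.exp (Real.log (wn (gs κ) K' w z) / 2)) := by
    have h1 : EG (fun z => 1 + wn (gs κ) K' w z) := (EG.const 1).add hwn
    refine h1.mono ?_ fun y => ?_
    · exact Real.measurable_exp.comp ((Real.measurable_log.comp (hw.meas_wn K')).div_const 2)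
    · have hp := hw.wn_pos K' y
      rw [abs_of_pos (Real.exp_pos _), abs_of_pos (by linarith)]
      have h2 : Real.exp (Real.log (wn (gs κ) K' w y) / 2) ^ 2 = wn (gs κ) K' w y := by
        rw [← Real.exp_nat_mul, ← hexp y]
        congr 1
        rw [hexp y]
        push_cast; ring
      nlinarith [sq_nonneg (Real.exp (Real.log (wn (gs κ) K' w y) / 2) - 1),
        Real.exp_pos (Real.log (wn (gs κ) K' w y) / 2)]
  have egf : EG f := by
    obtain ⟨C, hC⟩ := hf.bd
    exact EG.of_bdd hf.meas hC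
  have egf' : ∀ e ∈ K' \ K, EG (f' e) := fun e he => by
    obtain ⟨C, hC⟩ := (hf' e he).bd
    exact EG.of_bdd (hf' e he).meas hC
  have hdV : H646.Dep K' (fun z => Real.log (wn (gs κ) K' w z)) := by
    intro y y'
    show Real.log _ = Real.log _
    rw [H646.dep_wn K' y y']
  have m1 := int_wn_glue hw hK hdf hf z
  have m2 := int_wn_glue hw hK (Ψ := fun _ => (1 : ℝ)) (fun _ _ => rfl) (BM.const 1) z
  rw [H646.cx_one hw] at m2
  simp only [mul_one] at m2
  have egw : EG (fun z' => wn (gs κ) K' w (glue K z z')) := eg_glue hwn K z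
  have egfz : EG (fun z' => f (glue K z z')) := eg_glue egf K z
  have key := tilt_poincare (ι := κ) (f := fun z' => f (glue K z z') - cx (gs κ) K w f z)
    (V := fun z' => Real.log (wn (gs κ) K' w (glue K z z')))
    (f' := fun e z' => onA (K' \ K) f' e (glue K z z'))
    (V' := fun e z' => onA (K' \ K) V' e (glue K z z')) (L := L)
    (egfz.sub (EG.const _))
    (fun e => by
      have h1 := (pd_frozen hdf hfd z e).sub (PD.const (e := e) (cx (gs κ) K w f z))
      simpa only [sub_zero] using h1)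
    (fun e => eg_glue (eg_onA egf' e) K z)
    (pd_frozen hdV hV z) (fun e => eg_glue (eg_onA hV' e) K z) (eg_glue hh K z)
    (fun z' => by simp only [sum_onA]; exact hL _) hL0 hL1
    (by
      simp only [hexp]
      have e1 : (fun z' => wn (gs κ) K' w (glue K z z') * (f (glue K z z') - cx (gs κ) K w f z))
          = fun z' => wn (gs κ) K' w (glue K z z') * f (glue K z z')
            - wn (gs κ) K' w (glue K z z') * cx (gs κ) K w f z := by funext z'; ring
      rw [e1, integral_sub (egw.mul egfz).integrable (egw.integrable.mul_const _),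
        integral_mul_const, m1, m2, sub_self])
  simp only [hexp, sum_onA] at key
  have bg : BM (fun z => (f z - cx (gs κ) K w f z) ^ 2) := BM.sq' (hf.sub (hw.bm_cx K hf))
  have bS : BM (fun z => ∑ e ∈ K' \ K, f' e z ^ 2) := BM.sum _ fun e he => BM.sq' (hf' e he)
  have k1 := int_wn_glue hw hK (Ψ := fun z => (f z - cx (gs κ) K w f z) ^ 2)
    (fun y y' => by
      show (f (glue K' y y') - cx (gs κ) K w f (glue K' y y')) ^ 2 = _
      rw [hdf y y', (H646.dep_cx (μ := gs κ) (w := w) (Ψ := f) K).mono hK y y']) bg z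
  have k2 := int_wn_glue hw hK (Ψ := fun z => ∑ e ∈ K' \ K, f' e z ^ 2)
    (fun y y' => Finset.sum_congr rfl fun e he => by rw [hdf' e he y y']) bS z
  have k3 : ∀ z', cx (gs κ) K w f (glue K z z') = cx (gs κ) K w f z := fun z' =>
    H646.dep_cx (μ := gs κ) (w := w) (Ψ := f) K z z'
  simp only [k3] at k1
  rw [k1, k2] at key
  have hp := hw.wn_pos K z
  have : wn (gs κ) K w z * cx (gs κ) K w (fun z => (f z - cx (gs κ) K w f z) ^ 2) z
      ≤ wn (gs κ) K w z
        * (4 * cx (gs κ) K w (fun z => ∑ e ∈ K' \ K, f' e z ^ 2) z) := by linarith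
  exact le_of_mul_le_mul_left this hp

/-- **conditional fourth moment.** `N` depends on `K'`, has conditional mean zero given `K`, and
the row density `wn K' w` has logarithmic gradient at most `L ≤ 1/2` in the new coordinates. -/
theorem fourth_cx (hw : Wt (gs κ) w) (hK : K ⊆ K') {N : (κ → ℝ) → ℝ} {N' V' : κ → (κ → ℝ) → ℝ}
    {L : ℝ} (hN : BM N) (hdN : H646.Dep K' N) (hNd : ∀ e ∈ K' \ K, PD e N (N' e))
    (hN' : ∀ e ∈ K' \ K, BM (N' e)) (hdN' : ∀ e ∈ K' \ K, H646.Dep K' (N' e))
    (hV : ∀ e ∈ K' \ K, PD e (fun z => Real.log (wn (gs κ) K' w z)) (V' e))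
    (hV' : ∀ e ∈ K' \ K, EG (V' e)) (hwn : EG (wn (gs κ) K' w))
    (hL : ∀ z, ∑ e ∈ K' \ K, V' e z ^ 2 ≤ L ^ 2) (hL0 : 0 ≤ L) (hL1 : L ≤ 1 / 2)
    (h0 : ∀ z, cx (gs κ) K w N z = 0) (z : κ → ℝ) :
    cx (gs κ) K w (fun z => N z ^ 4) z
      ≤ 288 * cx (gs κ) K w (fun z => (∑ e ∈ K' \ K, N' e z ^ 2) ^ 2) z := by
  have hexp : ∀ z, Real.exp (Real.log (wn (gs κ) K' w z)) = wn (gs κ) K' w z := fun z =>
    Real.exp_log (hw.wn_pos K' z)
  have hh : EG (fun z => Real.exp (Real.log (wn (gs κ) K' w z) / 2)) := by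
    have h1 : EG (fun z => 1 + wn (gs κ) K' w z) := (EG.const 1).add hwn
    refine h1.mono ?_ fun y => ?_
    · exact Real.measurable_exp.comp ((Real.measurable_log.comp (hw.meas_wn K')).div_const 2)
    · have hp := hw.wn_pos K' y
      rw [abs_of_pos (Real.exp_pos _), abs_of_pos (by linarith)]
      have h2 : Real.exp (Real.log (wn (gs κ) K' w y) / 2) ^ 2 = wn (gs κ) K' w y := by
        rw [← Real.exp_nat_mul, ← hexp y]
        congr 1
        rw [hexp y]
        push_cast; ring
      nlinarith [sq_nonneg (Real.exp (Real.log (wn (gs κ) K' w y) / 2) - 1),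
        Real.exp_pos (Real.log (wn (gs κ) K' w y) / 2)]
  have egN : EG N := by
    obtain ⟨C, hC⟩ := hN.bd
    exact EG.of_bdd hN.meas hC
  have egN' : ∀ e ∈ K' \ K, EG (N' e) := fun e he => by
    obtain ⟨C, hC⟩ := (hN' e he).bd
    exact EG.of_bdd (hN' e he).meas hC
  have hdV : H646.Dep K' (fun z => Real.log (wn (gs κ) K' w z)) := by
    intro y y'
    show Real.log _ = Real.log _
    rw [H646.dep_wn K' y y']
  have key := fourth (ι := κ) (N := fun z' => N (glue K z z'))
    (V := fun z' => Real.log (wn (gs κ) K' w (glue K z z')))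
    (N' := fun e z' => onA (K' \ K) N' e (glue K z z'))
    (V' := fun e z' => onA (K' \ K) V' e (glue K z z')) (L := L)
    (eg_glue egN K z) (pd_frozen hdN hNd z) (fun e => eg_glue (eg_onA egN' e) K z)
    (pd_frozen hdV hV z) (fun e => eg_glue (eg_onA hV' e) K z) (eg_glue hh K z)
    (fun z' => by simp only [sum_onA]; exact hL _) hL0 hL1
    (by
      simp only [hexp]
      rw [int_wn_glue hw hK hdN hN z, h0 z, mul_zero])
  simp only [hexp, sum_onA] at key
  have b4 : BM (fun z => N z ^ 4) := by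
    have := BM.sq' (BM.sq' hN)
    simpa only [← pow_mul] using this
  have bS : BM (fun z => ∑ e ∈ K' \ K, N' e z ^ 2) := BM.sum _ fun e he => BM.sq' (hN' e he)
  have k1 := int_wn_glue hw hK (Ψ := fun z => N z ^ 4)
    (fun y y' => by simp only [hdN y y']) b4 z
  have k2 := int_wn_glue hw hK (Ψ := fun z => (∑ e ∈ K' \ K, N' e z ^ 2) ^ 2)
    (fun y y' => by
      show (∑ e ∈ K' \ K, N' e (glue K' y y') ^ 2) ^ 2 = (∑ e ∈ K' \ K, N' e y ^ 2) ^ 2
      congr 1
      exact Finset.sum_congr rfl fun e he => by rw [hdN' e he y y']) (BM.sq' bS) z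
  rw [k1, k2] at key
  have hp := hw.wn_pos K z
  have : wn (gs κ) K w z * cx (gs κ) K w (fun z => N z ^ 4) z
      ≤ wn (gs κ) K w z
        * (288 * cx (gs κ) K w (fun z => (∑ e ∈ K' \ K, N' e z ^ 2) ^ 2) z) := by linarith
  exact le_of_mul_le_mul_left this hp

/-- the same, integrated. -/
theorem fourth_ex (hw : Wt (gs κ) w) (hK : K ⊆ K') {N : (κ → ℝ) → ℝ} {N' V' : κ → (κ → ℝ) → ℝ}
    {L : ℝ} (hN : BM N) (hdN : H646.Dep K' N) (hNd : ∀ e ∈ K' \ K, PD e N (N' e))
    (hN' : ∀ e ∈ K' \ K, BM (N' e)) (hdN' : ∀ e ∈ K' \ K, H646.Dep K' (N' e))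
    (hV : ∀ e ∈ K' \ K, PD e (fun z => Real.log (wn (gs κ) K' w z)) (V' e))
    (hV' : ∀ e ∈ K' \ K, EG (V' e)) (hwn : EG (wn (gs κ) K' w))
    (hL : ∀ z, ∑ e ∈ K' \ K, V' e z ^ 2 ≤ L ^ 2) (hL0 : 0 ≤ L) (hL1 : L ≤ 1 / 2)
    (h0 : ∀ z, cx (gs κ) K w N z = 0) :
    ex (gs κ) w (fun z => N z ^ 4)
      ≤ 288 * ex (gs κ) w (fun z => (∑ e ∈ K' \ K, N' e z ^ 2) ^ 2) := by
  have b4 : BM (fun z => N z ^ 4) := by
    have := BM.sq' (BM.sq' hN)
    simpa only [← pow_mul] using this
  have bS : BM (fun z => ∑ e ∈ K' \ K, N' e z ^ 2) := BM.sum _ fun e he => BM.sq' (hN' e he)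
  rw [← H646.ex_cx' hw (K := K) b4, ← H646.ex_cx' hw (K := K) (BM.sq' bS), ← ex_const_mul]
  exact ex_mono hw (hw.bm_cx K b4) ((BM.const _).mul (hw.bm_cx K (BM.sq' bS)))
    fun z => fourth_cx hw hK hN hdN hNd hN' hdN' hV hV' hwn hL hL0 hL1 h0 z

end cond

end Vale.Agent.P146.H487
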