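import Vale.Agent.P146.H946.Odd

/-! Poincare inequality under a tilt with a small gradient, and the fourth moment of a function
with mean zero (P146, block 09b-N4).

`tilt_poincare` : if the gradient of `V` is at most `1/2` then the variance under the law with
density proportional to `exp V` is at most `4` times the mean of the squared gradient.
`fourth` : a function `N` with mean zero satisfies `E N^4 ≤ 288 E (sum of N_e^2)^2`. -/

open MeasureTheory ProbabilityTheory

namespace Vale.Agent.P146.H487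

open Vale.Agent.P157.Lv Vale.Agent.P146.H425

set_option linter.unusedSectionVars false

variable {ι : Type} [Fintype ι] [DecidableEq ι]

/-- a quadratic inequality for integrals: Cauchy Schwarz. -/
theorem int_mul_sq_le {f g : (ι → ℝ) → ℝ} (hf : EG f) (hg : EG g) :
    (∫ z, f z * g z ∂(gI ι)) ^ 2 ≤ (∫ z, f z ^ 2 ∂(gI ι)) * ∫ z, g z ^ 2 ∂(gI ι) := by
  set A := ∫ z, f z ^ 2 ∂(gI ι) with hA
  set B := ∫ z, f z * g z ∂(gI ι) with hB
  set C := ∫ z, g z ^ 2 ∂(gI ι) with hC
  have i1 := (hf.pow 2).integrable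
  have i2 := (hf.mul hg).integrable
  have i3 := (hg.pow 2).integrable
  have key : ∀ t : ℝ, 0 ≤ C * (t * t) + (-(2 * B)) * t + A := by
    intro t
    have h1 : 0 ≤ ∫ z, (f z - t * g z) ^ 2 ∂(gI ι) := integral_nonneg fun z => sq_nonneg _
    have e : (fun z => (f z - t * g z) ^ 2)
        = fun z => (f z ^ 2 - (2 * t) * (f z * g z)) + (t * t) * g z ^ 2 := by
      funext z; ring
    have i4 : Integrable (fun z => f z ^ 2 - (2 * t) * (f z * g z)) (gI ι) :=
      i1.sub (i2.const_mul _)
    rw [e, integral_add i4 (i3.const_mul _), integral_sub i1 (i2.const_mul _),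
      integral_const_mul, integral_const_mul, ← hA, ← hB, ← hC] at h1
    linarith
  have := discrim_le_zero key
  unfold discrim at this
  nlinarith

theorem pd_half {e : ι} {V V' : (ι → ℝ) → ℝ} (hV : PD e V V') :
    PD e (fun z => Real.exp (V z / 2)) (fun z => Real.exp (V z / 2) * (V' z / 2)) := by
  have h2 := (hV.const_mul (1 / 2)).exp
  intro y x
  have h := h2 y x
  have e1 : (fun t => (fun y => Real.exp (1 / 2 * V y)) (Function.update y e t))
      = fun t => (fun z => Real.exp (V z / 2)) (Function.update y e t) := by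
    funext t
    show Real.exp (1 / 2 * V (Function.update y e t)) = Real.exp (V (Function.update y e t) / 2)
    congr 1; ring
  have e2 : (fun y => Real.exp (1 / 2 * V y) * (1 / 2 * V' y)) (Function.update y e x)
      = (fun z => Real.exp (V z / 2) * (V' z / 2)) (Function.update y e x) := by
    show Real.exp (1 / 2 * V (Function.update y e x)) * (1 / 2 * V' (Function.update y e x))
      = Real.exp (V (Function.update y e x) / 2) * (V' (Function.update y e x) / 2)
    rw [show 1 / 2 * V (Function.update y e x) = V (Function.update y e x) / 2 by ring]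
    ring
  rw [e1, e2] at h
  exact h

theorem eg_half {f : (ι → ℝ) → ℝ} (hf : EG f) : EG (fun z => f z / 2) := by
  have h := hf.const_mul (1 / 2)
  refine h.mono (hf.meas.div_const 2) fun y => le_of_eq ?_
  rw [show f y / 2 = 1 / 2 * f y by ring]

/-- the variance of the square root of the density. -/
theorem tilt_half {V : (ι → ℝ) → ℝ} {V' : ι → (ι → ℝ) → ℝ} {L : ℝ}
    (hV : ∀ e, PD e V (V' e)) (hV' : ∀ e, EG (V' e)) (hex : EG fun z => Real.exp (V z / 2))
    (hL : ∀ z, ∑ e, V' e z ^ 2 ≤ L ^ 2) :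
    ∫ z, Real.exp (V z) ∂(gI ι) - (∫ z, Real.exp (V z / 2) ∂(gI ι)) ^ 2
      ≤ (L ^ 2 / 4) * ∫ z, Real.exp (V z) ∂(gI ι) := by
  have hee : ∀ z, Real.exp (V z / 2) ^ 2 = Real.exp (V z) := fun z => by
    rw [← Real.exp_nat_mul]; congr 1; push_cast; ring
  have hexp : EG fun z => Real.exp (V z) := by
    have := hex.pow 2
    simpa only [hee] using this
  set c := ∫ z, Real.exp (V z / 2) ∂(gI ι) with hc
  have h1 := cc_var_le_one (F := fun z => Real.exp (V z / 2))
    (F' := fun e z => Real.exp (V z / 2) * (V' e z / 2)) hex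
    (fun e => pd_half (hV e)) (fun e => hex.mul (eg_half (hV' e)))
  have h2 : ∫ z, (Real.exp (V z / 2) - c) ^ 2 ∂(gI ι) = ∫ z, Real.exp (V z) ∂(gI ι) - c ^ 2 := by
    have e : (fun z => (Real.exp (V z / 2) - c) ^ 2)
        = fun z => (Real.exp (V z) - (2 * c) * Real.exp (V z / 2)) + c ^ 2 := by
      funext z
      rw [← hee]; ring
    have i4 : Integrable (fun z => Real.exp (V z) - (2 * c) * Real.exp (V z / 2)) (gI ι) :=
      hexp.integrable.sub (hex.integrable.const_mul _)
    rw [e, integral_add i4 (integrable_const _),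
      integral_sub hexp.integrable (hex.integrable.const_mul _), integral_const_mul, ← hc,
      integral_const, probReal_univ, one_smul]
    ring
  rw [← hc, h2] at h1
  refine h1.trans ?_
  rw [← integral_finsetSum _ (fun e _ => ((hex.mul (eg_half (hV' e))).pow 2).integrable),
    ← integral_const_mul]
  refine integral_mono (EG.sum Finset.univ fun e _ => ((hex.mul (eg_half (hV' e))).pow 2)).integrable
    (hexp.integrable.const_mul _) fun z => ?_
  show ∑ e, (Real.exp (V z / 2) * (V' e z / 2)) ^ 2 ≤ L ^ 2 / 4 * Real.exp (V z)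
  have e1 : ∑ e, (Real.exp (V z / 2) * (V' e z / 2)) ^ 2
      = Real.exp (V z) / 4 * ∑ e, V' e z ^ 2 := by
    rw [Finset.mul_sum]
    refine Finset.sum_congr rfl fun e _ => ?_
    rw [mul_pow, hee]; ring
  rw [e1]
  have := mul_le_mul_of_nonneg_left (hL z)
    (show 0 ≤ Real.exp (V z) / 4 by have := Real.exp_pos (V z); linarith)
  linarith

/-- **Poincare inequality under a Lipschitz tilt.** -/
theorem tilt_poincare {f V : (ι → ℝ) → ℝ} {f' V' : ι → (ι → ℝ) → ℝ} {L : ℝ}
    (hf : EG f) (hfd : ∀ e, PD e f (f' e)) (hf' : ∀ e, EG (f' e))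
    (hV : ∀ e, PD e V (V' e)) (hV' : ∀ e, EG (V' e)) (hex : EG fun z => Real.exp (V z / 2))
    (hL : ∀ z, ∑ e, V' e z ^ 2 ≤ L ^ 2) (hL0 : 0 ≤ L) (hL1 : L ≤ 1 / 2)
    (h0 : ∫ z, Real.exp (V z) * f z ∂(gI ι) = 0) :
    ∫ z, Real.exp (V z) * f z ^ 2 ∂(gI ι)
      ≤ 4 * ∫ z, Real.exp (V z) * ∑ e, f' e z ^ 2 ∂(gI ι) := by
  have hee : ∀ z, Real.exp (V z / 2) ^ 2 = Real.exp (V z) := fun z => by
    rw [← Real.exp_nat_mul]; congr 1; push_cast; ring
  have hexp : EG fun z => Real.exp (V z) := by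
    have := hex.pow 2
    simpa only [hee] using this
  have hVh : ∀ e, EG (fun z => V' e z / 2) := fun e => eg_half (hV' e)
  set Z := ∫ z, Real.exp (V z) ∂(gI ι) with hZ
  set c := ∫ z, Real.exp (V z / 2) ∂(gI ι) with hc
  set I := ∫ z, Real.exp (V z) * f z ^ 2 ∂(gI ι) with hI
  set D := ∫ z, Real.exp (V z) * ∑ e, f' e z ^ 2 ∂(gI ι) with hD
  have hI0 : 0 ≤ I := integral_nonneg fun z => mul_nonneg (Real.exp_pos _).le (sq_nonneg _)
  have hZpos : 0 < Z := integral_exp_pos hexp.integrable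
  have hcpos : 0 < c := integral_exp_pos hex.integrable
  have hL2 : L ^ 2 / 4 ≤ 1 / 16 := by nlinarith
  -- step 1: the square root of the density
  have s1 : Z - c ^ 2 ≤ (L ^ 2 / 4) * Z := tilt_half hV hV' hex hL
  have s1' : 15 / 16 * Z ≤ c ^ 2 := by nlinarith
  -- step 2: the mean of `f exp (V/2)`
  have s2 : (∫ z, f z * Real.exp (V z / 2) ∂(gI ι)) ^ 2 ≤ (1 / 15) * I := by
    have e1 : ∫ z, f z * Real.exp (V z / 2) ∂(gI ι)
        = ∫ z, (f z * Real.exp (V z / 2)) * (1 - (1 / c) * Real.exp (V z / 2)) ∂(gI ι) := by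
      have e2 : (fun z => (f z * Real.exp (V z / 2)) * (1 - (1 / c) * Real.exp (V z / 2)))
          = fun z => f z * Real.exp (V z / 2) - (1 / c) * (Real.exp (V z) * f z) := by
        funext z
        rw [← hee]; ring
      rw [e2, integral_sub (hf.mul hex).integrable ((hexp.mul hf).integrable.const_mul _),
        integral_const_mul, h0]
      ring
    have e3 : EG (fun z => 1 - (1 / c) * Real.exp (V z / 2)) :=
      (EG.const 1).sub (hex.const_mul _)
    rw [e1]
    refine (int_mul_sq_le (hf.mul hex) e3).trans ?_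
    have e4 : ∫ z, (f z * Real.exp (V z / 2)) ^ 2 ∂(gI ι) = I := by
      rw [hI]
      refine integral_congr_ae (Filter.Eventually.of_forall fun z => ?_)
      show (f z * Real.exp (V z / 2)) ^ 2 = Real.exp (V z) * f z ^ 2
      rw [mul_pow, hee]; ring
    have e5 : ∫ z, (1 - (1 / c) * Real.exp (V z / 2)) ^ 2 ∂(gI ι) = Z / c ^ 2 - 1 := by
      have e6 : (fun z => (1 - (1 / c) * Real.exp (V z / 2)) ^ 2)
          = fun z => ((1 / c ^ 2) * Real.exp (V z) - (2 / c) * Real.exp (V z / 2)) + 1 := by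
        funext z
        rw [← hee]
        field_simp
        ring
      have i4 : Integrable
          (fun z => (1 / c ^ 2) * Real.exp (V z) - (2 / c) * Real.exp (V z / 2)) (gI ι) :=
        (hexp.integrable.const_mul _).sub (hex.integrable.const_mul _)
      rw [e6, integral_add i4 (integrable_const _),
        integral_sub (hexp.integrable.const_mul _) (hex.integrable.const_mul _),
        integral_const_mul, integral_const_mul, ← hZ, ← hc, integral_const, probReal_univ,
        one_smul]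
      field_simp
      ring
    rw [e4, e5]
    have e7 : Z / c ^ 2 - 1 ≤ 1 / 15 := by
      rw [sub_le_iff_le_add, div_le_iff₀ (by positivity)]
      linarith
    calc I * (Z / c ^ 2 - 1) ≤ I * (1 / 15) := mul_le_mul_of_nonneg_left e7 hI0
      _ = 1 / 15 * I := by ring
  -- step 3: the Gaussian Poincare inequality
  have hg : EG (fun z => f z * Real.exp (V z / 2)) := hf.mul hex
  have hg' : ∀ e, EG (fun z => f' e z * Real.exp (V z / 2)
      + f z * (Real.exp (V z / 2) * (V' e z / 2))) := fun e =>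
    ((hf' e).mul hex).add (hf.mul (hex.mul (hVh e)))
  have s3 := cc_var_le_one (F := fun z => f z * Real.exp (V z / 2))
    (F' := fun e z => f' e z * Real.exp (V z / 2) + f z * (Real.exp (V z / 2) * (V' e z / 2))) hg
    (fun e => (hfd e).mul (pd_half (hV e))) hg'
  set m := ∫ z, f z * Real.exp (V z / 2) ∂(gI ι) with hm
  have s4 : ∫ z, (f z * Real.exp (V z / 2) - m) ^ 2 ∂(gI ι) = I - m ^ 2 := by
    have e : (fun z => (f z * Real.exp (V z / 2) - m) ^ 2)
        = fun z => (Real.exp (V z) * f z ^ 2 - (2 * m) * (f z * Real.exp (V z / 2))) + m ^ 2 := by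
      funext z
      rw [← hee]; ring
    have i4 : Integrable (fun z => Real.exp (V z) * f z ^ 2
        - (2 * m) * (f z * Real.exp (V z / 2))) (gI ι) :=
      (hexp.mul (hf.pow 2)).integrable.sub (hg.integrable.const_mul _)
    rw [e, integral_add i4 (integrable_const _),
      integral_sub (hexp.mul (hf.pow 2)).integrable (hg.integrable.const_mul _),
      integral_const_mul, ← hm, ← hI, integral_const, probReal_univ, one_smul]
    ring
  rw [s4] at s3
  have hDi : EG (fun z => Real.exp (V z) * ∑ e, f' e z ^ 2) :=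
    hexp.mul (EG.sum Finset.univ fun e _ => (hf' e).pow 2)
  have hIi : EG (fun z => Real.exp (V z) * f z ^ 2) := hexp.mul (hf.pow 2)
  have s5 : ∑ e, ∫ z, (f' e z * Real.exp (V z / 2)
      + f z * (Real.exp (V z / 2) * (V' e z / 2))) ^ 2 ∂(gI ι) ≤ 2 * D + (1 / 8) * I := by
    rw [← integral_finsetSum _ fun e _ => ((hg' e).pow 2).integrable]
    have : 2 * D + (1 / 8) * I = ∫ z, (2 * (Real.exp (V z) * ∑ e, f' e z ^ 2)
        + (1 / 8) * (Real.exp (V z) * f z ^ 2)) ∂(gI ι) := by
      rw [integral_add (hDi.integrable.const_mul _) (hIi.integrable.const_mul _),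
        integral_const_mul, integral_const_mul]
    rw [this]
    refine integral_mono (EG.sum Finset.univ fun e _ => (hg' e).pow 2).integrable
      ((hDi.integrable.const_mul _).add (hIi.integrable.const_mul _)) fun z => ?_
    show ∑ e, (f' e z * Real.exp (V z / 2) + f z * (Real.exp (V z / 2) * (V' e z / 2))) ^ 2
      ≤ 2 * (Real.exp (V z) * ∑ e, f' e z ^ 2) + (1 / 8) * (Real.exp (V z) * f z ^ 2)
    have hb : ∀ e, (f' e z * Real.exp (V z / 2) + f z * (Real.exp (V z / 2) * (V' e z / 2))) ^ 2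
        ≤ Real.exp (V z) * (2 * f' e z ^ 2 + f z ^ 2 / 2 * V' e z ^ 2) := by
      intro e
      have e8 : (f' e z * Real.exp (V z / 2) + f z * (Real.exp (V z / 2) * (V' e z / 2))) ^ 2
          = Real.exp (V z) * (f' e z + f z * V' e z / 2) ^ 2 := by
        rw [← hee]; ring
      rw [e8]
      refine mul_le_mul_of_nonneg_left ?_ (Real.exp_pos _).le
      nlinarith [sq_nonneg (f' e z - f z * V' e z / 2)]
    refine (Finset.sum_le_sum fun e _ => hb e).trans ?_
    rw [← Finset.mul_sum, Finset.sum_add_distrib, ← Finset.mul_sum, ← Finset.mul_sum]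
    have h9 : f z ^ 2 / 2 * ∑ e, V' e z ^ 2 ≤ f z ^ 2 / 8 := by
      have := mul_le_mul_of_nonneg_left ((hL z).trans (by nlinarith : L ^ 2 ≤ 1 / 4))
        (show 0 ≤ f z ^ 2 / 2 by positivity)
      linarith
    have h10 := mul_le_mul_of_nonneg_left h9 (Real.exp_pos (V z)).le
    nlinarith
  have s6 : I - m ^ 2 ≤ 2 * D + (1 / 8) * I := s3.trans s5
  have hD0 : 0 ≤ D := integral_nonneg fun z =>
    mul_nonneg (Real.exp_pos _).le (Finset.sum_nonneg fun e _ => sq_nonneg _)
  nlinarith

/-- **fourth moment of a function with mean zero under a Lipschitz tilt.** -/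
theorem fourth {N V : (ι → ℝ) → ℝ} {N' V' : ι → (ι → ℝ) → ℝ} {L : ℝ}
    (hN : EG N) (hNd : ∀ e, PD e N (N' e)) (hN' : ∀ e, EG (N' e))
    (hV : ∀ e, PD e V (V' e)) (hV' : ∀ e, EG (V' e)) (hex : EG fun z => Real.exp (V z / 2))
    (hL : ∀ z, ∑ e, V' e z ^ 2 ≤ L ^ 2) (hL0 : 0 ≤ L) (hL1 : L ≤ 1 / 2)
    (h0 : ∫ z, Real.exp (V z) * N z ∂(gI ι) = 0) :
    ∫ z, Real.exp (V z) * N z ^ 4 ∂(gI ι)
      ≤ 288 * ∫ z, Real.exp (V z) * (∑ e, N' e z ^ 2) ^ 2 ∂(gI ι) := by
  have hee : ∀ z, Real.exp (V z / 2) ^ 2 = Real.exp (V z) := fun z => by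
    rw [← Real.exp_nat_mul]; congr 1; push_cast; ring
  have hexp : EG fun z => Real.exp (V z) := by
    have := hex.pow 2
    simpa only [hee] using this
  have hS : EG (fun z => ∑ e, N' e z ^ 2) := EG.sum Finset.univ fun e _ => (hN' e).pow 2
  set Z := ∫ z, Real.exp (V z) ∂(gI ι) with hZ
  set A2 := ∫ z, Real.exp (V z) * N z ^ 2 ∂(gI ι) with hA2
  set A4 := ∫ z, Real.exp (V z) * N z ^ 4 ∂(gI ι) with hA4
  set G1 := ∫ z, Real.exp (V z) * ∑ e, N' e z ^ 2 ∂(gI ι) with hG1
  set G2 := ∫ z, Real.exp (V z) * (∑ e, N' e z ^ 2) ^ 2 ∂(gI ι) with hG2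
  have hZpos : 0 < Z := integral_exp_pos hexp.integrable
  have hA20 : 0 ≤ A2 := integral_nonneg fun z => mul_nonneg (Real.exp_pos _).le (sq_nonneg _)
  have hG10 : 0 ≤ G1 := integral_nonneg fun z =>
    mul_nonneg (Real.exp_pos _).le (Finset.sum_nonneg fun e _ => sq_nonneg _)
  have t1 : A2 ≤ 4 * G1 := tilt_poincare hN hNd hN' hV hV' hex hL hL0 hL1 h0
  -- the mean of the square is removed
  set a := A2 / Z with ha
  have hf : EG (fun z => N z ^ 2 - a) := (hN.pow 2).sub (EG.const a)
  have hfd : ∀ e, PD e (fun z => N z ^ 2 - a) (fun z => 2 * (N z * N' e z)) := fun e => by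
    have h2 := ((hNd e).mul (hNd e)).sub (PD.const a)
    intro y x
    have := h2 y x
    convert this using 1
    · funext t; ring
    · ring
  have hf' : ∀ e, EG (fun z => 2 * (N z * N' e z)) := fun e => (hN.mul (hN' e)).const_mul 2
  have hm : ∫ z, Real.exp (V z) * (N z ^ 2 - a) ∂(gI ι) = 0 := by
    have e : (fun z => Real.exp (V z) * (N z ^ 2 - a))
        = fun z => Real.exp (V z) * N z ^ 2 - a * Real.exp (V z) := by funext z; ring
    rw [e, integral_sub (hexp.mul (hN.pow 2)).integrable (hexp.integrable.const_mul _),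
      integral_const_mul, ← hA2, ← hZ, ha]
    field_simp
    ring
  have t2 := tilt_poincare hf hfd hf' hV hV' hex hL hL0 hL1 hm
  have t3 : ∫ z, Real.exp (V z) * (N z ^ 2 - a) ^ 2 ∂(gI ι) = A4 - A2 ^ 2 / Z := by
    have e : (fun z => Real.exp (V z) * (N z ^ 2 - a) ^ 2)
        = fun z => (Real.exp (V z) * N z ^ 4 - (2 * a) * (Real.exp (V z) * N z ^ 2))
          + a ^ 2 * Real.exp (V z) := by funext z; ring
    have i4 : Integrable (fun z => Real.exp (V z) * N z ^ 4
        - (2 * a) * (Real.exp (V z) * N z ^ 2)) (gI ι) :=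
      (hexp.mul (hN.pow 4)).integrable.sub ((hexp.mul (hN.pow 2)).integrable.const_mul _)
    rw [e, integral_add i4 (hexp.integrable.const_mul _),
      integral_sub (hexp.mul (hN.pow 4)).integrable ((hexp.mul (hN.pow 2)).integrable.const_mul _),
      integral_const_mul, integral_const_mul, ← hA4, ← hA2, ← hZ, ha]
    field_simp
    ring
  -- the gradient term
  have t4 : 4 * ∫ z, Real.exp (V z) * ∑ e, (2 * (N z * N' e z)) ^ 2 ∂(gI ι)
      ≤ 1 / 2 * A4 + 128 * G2 := by
    have i1 := (hexp.mul (hN.pow 4)).integrable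
    have i2 := (hexp.mul (hS.pow 2)).integrable
    have : 1 / 2 * A4 + 128 * G2 = ∫ z, (1 / 2 * (Real.exp (V z) * N z ^ 4)
        + 128 * (Real.exp (V z) * (∑ e, N' e z ^ 2) ^ 2)) ∂(gI ι) := by
      rw [integral_add (i1.const_mul _) (i2.const_mul _), integral_const_mul, integral_const_mul]
    rw [this, ← integral_const_mul]
    refine integral_mono ((hexp.mul (EG.sum Finset.univ fun e _ =>
      (hf' e).pow 2)).integrable.const_mul _)
      ((i1.const_mul _).add (i2.const_mul _)) fun z => ?_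
    show 4 * (Real.exp (V z) * ∑ e, (2 * (N z * N' e z)) ^ 2)
      ≤ 1 / 2 * (Real.exp (V z) * N z ^ 4) + 128 * (Real.exp (V z) * (∑ e, N' e z ^ 2) ^ 2)
    have e1 : ∑ e, (2 * (N z * N' e z)) ^ 2 = 4 * N z ^ 2 * ∑ e, N' e z ^ 2 := by
      rw [Finset.mul_sum]
      exact Finset.sum_congr rfl fun e _ => by ring
    rw [e1]
    have := mul_nonneg (Real.exp_pos (V z)).le
      (sq_nonneg (N z ^ 2 - 16 * ∑ e, N' e z ^ 2))
    nlinarith
  -- the square of the second moment
  have t5 : G1 ^ 2 ≤ Z * G2 := by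
    have h1 := int_mul_sq_le (f := fun z => Real.exp (V z / 2))
      (g := fun z => Real.exp (V z / 2) * ∑ e, N' e z ^ 2) hex (hex.mul hS)
    have e1 : ∫ z, Real.exp (V z / 2) * (Real.exp (V z / 2) * ∑ e, N' e z ^ 2) ∂(gI ι) = G1 := by
      rw [hG1]
      refine integral_congr_ae (Filter.Eventually.of_forall fun z => ?_)
      show Real.exp (V z / 2) * (Real.exp (V z / 2) * ∑ e, N' e z ^ 2)
        = Real.exp (V z) * ∑ e, N' e z ^ 2
      rw [← hee]; ring
    have e2 : ∫ z, Real.exp (V z / 2) ^ 2 ∂(gI ι) = Z := by simp only [hee, hZ]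
    have e3 : ∫ z, (Real.exp (V z / 2) * ∑ e, N' e z ^ 2) ^ 2 ∂(gI ι) = G2 := by
      rw [hG2]
      refine integral_congr_ae (Filter.Eventually.of_forall fun z => ?_)
      show (Real.exp (V z / 2) * ∑ e, N' e z ^ 2) ^ 2 = Real.exp (V z) * (∑ e, N' e z ^ 2) ^ 2
      rw [← hee]; ring
    rwa [e1, e2, e3] at h1
  have t6 : A2 ^ 2 / Z ≤ 16 * G2 := by
    rw [div_le_iff₀ hZpos]
    have : A2 ^ 2 ≤ (4 * G1) ^ 2 := pow_le_pow_left₀ hA20 t1 2
    nlinarith
  rw [t3] at t2
  linarith

end Vale.Agent.P146.H487
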